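import Vale.Agent.P192.H121.Deep

/-!
# P192: deep relators
-/

namespace Vale.Agent.Results.P192.DeepRelators

open Vale.Agent.P192.H121 Monoid

universe u v w

/-- No finitely presented periodic group has a homomorphism to `Q` with an image of finite
index. -/
def NoCover (Q : Type u) [Group Q] : Prop :=
  ∀ (Γ : Type w) [Group Γ] [Group.IsFinitelyPresented Γ], (∀ γ : Γ, IsOfFinOrder γ) →
    ∀ φ : Γ →* Q, ¬ φ.range.FiniteIndex

/-- The Golod-Shafarevich condition for a number `d` of generators. -/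
def GS (d : ℕ) {I : Type v} (n : I → ℕ) : Prop :=
  ∃ t δ : ℝ, 0 < t ∧ t < 1 ∧ (∀ J : Finset I, ∑ i ∈ J, t ^ n i ≤ δ) ∧ δ < d * t - 1

/-- **Deep relators.** -/
theorem result (p : ℕ) [Fact p.Prime] :
    -- (1) Golod-Shafarevich groups
    (∀ (α : Type u) [Fintype α] (I : Type v) (g : I → FreeGroup α) (n : I → ℕ),
      (∀ i, 1 ≤ n i ∧ Depth p (n i) (g i)) → GS (Fintype.card α) n →
        Infinite (FreeGroup α ⧸ Subgroup.normalClosure (Set.range g)) ∧
        ∀ (M : Subgroup (FreeGroup α)) [M.Normal],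
          M ≤ phi p (Subgroup.normalClosure (Set.range g)) →
            NoCover.{u, w} (FreeGroup α ⧸ M)) ∧
    -- (2) power relators
    (∀ (α : Type u) [Fintype α] (I : Type v) (s : I → FreeGroup α) (e : I → ℕ),
      GS (Fintype.card α) (fun i => p ^ e i) →
        NoCover.{u, w} (PresentedGroup (Set.range fun i => s i ^ (p ^ (e i + 1))))) ∧
    -- (3) the number of power relators
    (∀ (α : Type u) [Fintype α] (R : Finset (FreeGroup α)) (e : ℕ),
      (∀ r ∈ R, ∃ s, r = s ^ (p ^ (e + 1))) →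
      (∀ γ : PresentedGroup (R : Set (FreeGroup α)), IsOfFinOrder γ) →
        ∀ t : ℝ, 0 < t → t < 1 → Fintype.card α * t - 1 ≤ R.card * t ^ (p ^ e)) ∧
    -- (4) the length of deep relators
    (∀ (α : Type u) [Fintype α] [DecidableEq α], 2 ≤ Fintype.card α → ∀ e K : ℕ, 3 ≤ p ^ e →
      ∀ R : Finset (FreeGroup α),
        (∀ γ : PresentedGroup (R : Set (FreeGroup α)), IsOfFinOrder γ) →
        (∀ r ∈ R, Depth p (p ^ e + 3 * (p - 1) * p ^ e * (K + 1) * (p ^ e - 1) ^ K + 1) r) →
          p ^ ((p ^ e - 1) ^ K) * Fintype.card α ≤ 1 + ∑ r ∈ R, r.norm ^ 2) ∧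
    -- (5) the same, asymptotically
    (∃ c : ℝ, 0 < c ∧ ∀ (α : Type u) [Fintype α] [DecidableEq α], 2 ≤ Fintype.card α →
      ∀ (D : ℕ) (R : Finset (FreeGroup α)),
        (∀ γ : PresentedGroup (R : Set (FreeGroup α)), IsOfFinOrder γ) →
        (∀ r ∈ R, Depth p D r) →
          Real.exp (c * D / Real.log (D + 1)) ≤ 1 + ∑ r ∈ R, (r.norm : ℝ) ^ 2) := by
  have hTors : ∀ (α : Type u) (R : Finset (FreeGroup α)),
      (∀ γ : PresentedGroup (R : Set (FreeGroup α)), IsOfFinOrder γ) →
        TorsRel (R : Set (FreeGroup α)) := by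
    intro α R hR w
    obtain ⟨k, hk, hk1⟩ := isOfFinOrder_iff_pow_eq_one.1 (hR (PresentedGroup.mk _ w))
    refine ⟨k - 1, ?_⟩
    rw [Nat.sub_add_cancel hk]
    rw [← map_pow] at hk1
    exact PresentedGroup.mk_eq_one_iff.1 hk1
  have h1 : ∀ (α : Type u) [Fintype α] (I : Type v) (g : I → FreeGroup α) (n : I → ℕ),
      (∀ i, 1 ≤ n i ∧ Depth p (n i) (g i)) → GS (Fintype.card α) n →
        Infinite (FreeGroup α ⧸ Subgroup.normalClosure (Set.range g)) ∧
        ∀ (M : Subgroup (FreeGroup α)) [M.Normal],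
          M ≤ phi p (Subgroup.normalClosure (Set.range g)) →
            NoCover.{u, w} (FreeGroup α ⧸ M) := by
    rintro α _ I g n hg ⟨t, δ, ht0, ht1, hsum, hδ⟩
    have hinf : Infinite (FreeGroup α ⧸ Subgroup.normalClosure (Set.range g)) :=
      golod_shafarevich g n (fun i => (hg i).2) (fun i => (hg i).1) t δ ht0 ht1 hδ hsum _ rfl
    refine ⟨hinf, fun M _ hM Γ _ _ hΓ φ hφ => ?_⟩
    have := free_group Γ hΓ (Subgroup.normalClosure (Set.range g)) M p hM φ hφ
    exact not_finite (FreeGroup α ⧸ Subgroup.normalClosure (Set.range g))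
  have h2 : ∀ (α : Type u) [Fintype α] (I : Type v) (s : I → FreeGroup α) (e : I → ℕ),
      GS (Fintype.card α) (fun i => p ^ e i) →
        NoCover.{u, w} (PresentedGroup (Set.range fun i => s i ^ (p ^ (e i + 1)))) := by
    intro α _ I s e hGS
    refine (h1 α I (fun i => s i ^ (p ^ e i)) (fun i => p ^ e i) (fun i =>
      ⟨Nat.one_le_pow _ _ (Fact.out : p.Prime).pos, depth_pow (s i) (e i)⟩) hGS).2
      (Subgroup.normalClosure (Set.range fun i => s i ^ (p ^ (e i + 1)))) ?_
    refine Subgroup.normalClosure_le_normal ?_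
    rintro _ ⟨i, rfl⟩
    change s i ^ (p ^ (e i + 1)) ∈ _
    rw [pow_succ, pow_mul]
    exact pow_mem_phi (Subgroup.subset_normalClosure (Set.mem_range_self i)) dvd_rfl
  refine ⟨h1, h2, ?_, ?_, ?_⟩
  · intro α _ R e hR hper t ht0 ht1
    by_contra hcon
    push Not at hcon
    choose! s hs using hR
    let g : R → FreeGroup α := fun r => s r.1 ^ (p ^ e)
    have hinf : Infinite (FreeGroup α ⧸ Subgroup.normalClosure (Set.range g)) := by
      refine golod_shafarevich g (fun _ => p ^ e) (fun r => depth_pow (s r.1) e)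
        (fun _ => Nat.one_le_pow _ _ (Fact.out : p.Prime).pos) t (R.card * t ^ (p ^ e)) ht0 ht1
        hcon (fun J => ?_) _ rfl
      rw [Finset.sum_const, nsmul_eq_mul]
      have h3 : J.card ≤ R.card := by
        have := Finset.card_le_univ J
        rwa [Fintype.card_coe] at this
      have h4 : (J.card : ℝ) ≤ R.card := by exact_mod_cast h3
      gcongr
    have hΓ : ∀ γ : FreeGroup α ⧸ Subgroup.normalClosure (R : Set (FreeGroup α)),
        IsOfFinOrder γ := hper
    have hfp : Group.IsFinitelyPresented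
        (FreeGroup α ⧸ Subgroup.normalClosure (R : Set (FreeGroup α))) :=
      inferInstanceAs (Group.IsFinitelyPresented (PresentedGroup (R : Set (FreeGroup α))))
    have hM : Subgroup.normalClosure (R : Set (FreeGroup α)) ≤
        phi p (Subgroup.normalClosure (Set.range g)) := by
      refine Subgroup.normalClosure_le_normal ?_
      intro r hr
      have h3 : r = g ⟨r, hr⟩ ^ p := by
        change r = (s r ^ (p ^ e)) ^ p
        rw [← pow_mul, ← pow_succ]
        exact hs r hr
      rw [SetLike.mem_coe, h3]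
      exact pow_mem_phi (Subgroup.subset_normalClosure (Set.mem_range_self _)) dvd_rfl
    have h5 := free_group (FreeGroup α ⧸ Subgroup.normalClosure (R : Set (FreeGroup α))) hΓ
      (Subgroup.normalClosure (Set.range g)) (Subgroup.normalClosure (R : Set (FreeGroup α))) p
      hM (MonoidHom.id _) (by
        rw [MonoidHom.range_eq_top.2 Function.surjective_id]
        infer_instance)
    exact not_finite (FreeGroup α ⧸ Subgroup.normalClosure (Set.range g))
  · intro α _ _ hα e K he R hper hR
    obtain ⟨x, y, hxy⟩ := Fintype.exists_pair_of_one_lt_card (show 1 < Fintype.card α by omega)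
    exact deep_relators x y hxy R (hTors α R hper) p e K he hR
  · obtain ⟨c, hc, h⟩ := deep_asymptotic.{u} p
    refine ⟨c, hc, fun α _ _ hα D R hper hR => ?_⟩
    have h3 := h α hα D R (hTors α R hper) hR
    refine h3.trans_eq ?_
    unfold rsq
    push_cast
    rfl

end Vale.Agent.Results.P192.DeepRelators
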