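import Vale.Agent.P192.H121.Bound

/-!
# P192: finitely supported cocycles of finitely presented periodic groups
-/

namespace Vale.Agent.Results.P192.FiniteSupports

open Vale.Agent.P192.H121 Monoid

universe u v w t s

/-- The subgroup `[K,K]K^p`. -/
def PhiP (p : ℕ) {P : Type u} [Group P] (K : Subgroup P) : Subgroup P :=
  ⁅K, K⁆ ⊔ Subgroup.closure ((fun k : P => k ^ p) '' K)

/-- `c` is a cocycle on the `Γ`-set `X`, with at most `N` nontrivial values at each `s ∈ S`. -/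
def Coc {Γ : Type u} [Group Γ] {X : Type v} [MulAction Γ X] {A : Type w} [Group A] (S : Set Γ)
    (N : ℕ) (c : Γ → X → A) : Prop :=
  (∀ g h x, c (g * h) x = c g (h • x) * c h x) ∧ ∀ s ∈ S, {x | c s x ≠ 1}.encard ≤ N

/-- (1) pairs of cocycles -/
def PairBound (Γ : Type u) [Group Γ] (S : Set Γ) (C : ℕ) : Prop :=
  ∀ (X : Type v) (Y : Type w) [MulAction Γ X] [MulAction Γ Y] (A : Type t) (B : Type s)
    [Group A] [Group B] (c : Γ → X → A) (d : Γ → Y → B) (N M : ℕ), Coc S N c → Coc S M d →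
    {o : MulAction.orbitRel.Quotient Γ (X × Y) | ∃ z : X × Y, Quotient.mk'' z = o ∧
      (∃ g : Γ, g • z = z ∧ c g z.1 ≠ 1) ∧ ∃ g : Γ, g • z = z ∧ d g z.2 ≠ 1}.encard ≤ C * N * M

/-- (2) transitive actions -/
def RankBound (Γ : Type u) [Group Γ] (S : Set Γ) (C : ℕ) : Prop :=
  ∀ (X : Type v) [MulAction Γ X] [MulAction.IsPretransitive Γ X] (A : Type t) [Group A]
    (c : Γ → X → A) (N : ℕ), Coc S N c → ∀ (k : Γ) (x : X), (∀ y : X, k • y = y) → c k x ≠ 1 →
      ENat.card (MulAction.orbitRel.Quotient Γ (X × X)) ≤ C * N ^ 2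

/-- (3) wreath products -/
def WreathBound (Γ : Type u) [Group Γ] (S : Set Γ) (C : ℕ) : Prop :=
  ∀ (A : Type t) (Q : Type v) [Group A] [Group Q] (f : Γ →* A ≀ᵣ Q) (N : ℕ),
    (∀ s ∈ S, {x | (f s).left x ≠ 1}.encard ≤ N) → ∀ γ : Γ, (f γ).right = 1 → f γ ≠ 1 →
      ENat.card (RegularWreathProduct.rightHom.comp f).range ≤ C * N ^ 2

/-- (4) free products -/
def FreeProducts (Γ : Type u) [Group Γ] : Prop :=
  ∀ (ι : Type v) (G : ι → Type w) [∀ i, Group (G i)] (B : Type t) [Group B]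
    (β : ∀ i, G i →* B), Function.Surjective (CoprodI.lift β) → ∀ (p : ℕ) [Fact p.Prime]
    (M : Subgroup (CoprodI G)) [M.Normal], M ≤ PhiP p (CoprodI.lift β).ker →
    ∀ φ : Γ →* CoprodI G ⧸ M, φ.range.FiniteIndex →
      ∀ i j : ι, i ≠ j → β i ≠ 1 → β j ≠ 1 → Finite B

/-- (5) free groups -/
def FreeGroups (Γ : Type u) [Group Γ] : Prop :=
  ∀ (α : Type v) (N M : Subgroup (FreeGroup α)) [N.Normal] [M.Normal] (p : ℕ) [Fact p.Prime],
    M ≤ PhiP p N → ∀ φ : Γ →* FreeGroup α ⧸ M, φ.range.FiniteIndex → N.FiniteIndex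

/-- (6) powers of relators -/
def PowerShift (Γ : Type u) [Group Γ] : Prop :=
  ∀ (α : Type v) (I : Type w) (r : I → FreeGroup α) (n : I → ℕ) (p : ℕ) [Fact p.Prime],
    (∀ i, p ∣ n i) → ∀ φ : Γ →* PresentedGroup (Set.range fun i => r i ^ n i),
      φ.range.FiniteIndex → Finite (PresentedGroup (Set.range r))

/-- **Finite supports.** Finitely presented periodic groups and finitely supported cocycles,
wreath products, and quotients by subgroups of `[K,K]K^p`. -/
theorem result :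
    (∀ (Γ : Type u) [Group Γ] [Group.IsFinitelyPresented Γ], (∀ γ : Γ, IsOfFinOrder γ) →
      (∀ S : Set Γ, S.Finite → Subgroup.closure S = ⊤ → ∃ C : ℕ,
        PairBound.{u, v, w, t, s} Γ S C ∧ RankBound.{u, v, t} Γ S C ∧
          WreathBound.{u, v, t} Γ S C) ∧
      FreeProducts.{u, v, w, t} Γ ∧ FreeGroups.{u, v} Γ ∧ PowerShift.{u, v, w} Γ) ∧
    -- (7) an explicit bound
    (∀ (α : Type u) [Fintype α] [DecidableEq α] (R : Finset (FreeGroup α)),
      (∀ g : PresentedGroup (R : Set (FreeGroup α)), IsOfFinOrder g) →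
      ∀ (N : Subgroup (FreeGroup α)) [N.Normal] (p : ℕ) [Fact p.Prime],
        (∀ r ∈ R, r ∈ PhiP p N) →
        N.FiniteIndex ∧ N.index * Fintype.card α ≤ 1 + ∑ r ∈ R, r.norm ^ 2) := by
  refine ⟨fun Γ _ _ hΓ => ⟨fun S hSf hS => ?_, ?_, ?_, ?_⟩, ?_⟩
  · obtain ⟨C1, h1⟩ := pairs_count.{u, v, w, t, s, max v w} Γ hΓ S hSf hS
    obtain ⟨C2, h2⟩ := rank_bound.{u, v, t} Γ hΓ S hSf hS
    obtain ⟨C3, h3⟩ := wreath_bound.{u, v, t} Γ hΓ S hSf hS
    have hle : ∀ (C : ℕ) (N M : ℕ), C ≤ C1 + C2 + C3 →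
        ((C : ℕ∞) * (N * M) : ℕ∞) ≤ ((C1 + C2 + C3 : ℕ) : ℕ∞) * N * M := by
      intro C N M hC
      rw [mul_assoc]
      gcongr
    refine ⟨C1 + C2 + C3, ?_, ?_, ?_⟩
    · rintro X Y _ _ A B _ _ c d N M ⟨hc, hN⟩ ⟨hd, hM⟩
      set O := {o : MulAction.orbitRel.Quotient Γ (X × Y) | ∃ z : X × Y, Quotient.mk'' z = o ∧
              (∃ g : Γ, g • z = z ∧ c g z.1 ≠ 1) ∧ ∃ g : Γ, g • z = z ∧ d g z.2 ≠ 1} with hO
      have hz : ∀ o : O, ∃ z : X × Y, Quotient.mk'' z = o.1 ∧
              (∃ g : Γ, g • z = z ∧ c g z.1 ≠ 1) ∧ ∃ g : Γ, g • z = z ∧ d g z.2 ≠ 1 :=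
        fun o => o.2
      choose z hz1 hz2 using hz
      have h4 := h1 X Y A B c d hc hd N M hN hM O z (by
        intro o o' g hg
        apply Subtype.ext
        rw [← hz1 o, ← hz1 o', ← hg]
        exact (Quotient.sound' (MulAction.orbitRel_apply.2 ⟨g, rfl⟩)).symm) hz2
      rw [ENat.card_coe_set_eq] at h4
      exact h4.trans (hle _ _ _ (by omega))
    · rintro X _ _ A _ c N ⟨hc, hN⟩ k x hk hkx
      refine (h2 X A c hc N hN k x hk hkx).trans ((hle _ _ _ (by omega)).trans_eq ?_)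
      rw [pow_two, mul_assoc]
    · intro A Q _ _ f N hN γ hγ1 hγ2
      have h4 : ∃ x, (f γ).left x ≠ 1 := by
        by_contra hcon
        push Not at hcon
        exact hγ2 (RegularWreathProduct.ext (funext hcon) hγ1)
      obtain ⟨x, hx⟩ := h4
      have h5 := h3 Q (RegularWreathProduct.rightHom.comp f) A (wcoc f)
        (fun g h x => wcoc_mul f g h x) N (fun s hs => by
          refine le_trans (le_of_eq ?_) (hN s hs)
          have h6 : {x | wcoc f s x ≠ 1} =
              (fun x => (f s).right * x) ⁻¹' {x | (f s).left x ≠ 1} := rfl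
          rw [h6]
          refine Set.encard_preimage_of_injective_subset_range (mul_right_injective _) ?_
          rw [(Group.mulLeft_bijective (f s).right).surjective.range_eq]
          exact Set.subset_univ _) γ x hγ1 (by
          unfold wcoc
          rw [hγ1, one_mul]
          exact hx)
      refine h5.trans ((hle _ _ _ (by omega)).trans_eq ?_)
      rw [pow_two, mul_assoc]
  · intro ι G _ B _ β hβ p _ M _ hM φ hφ i j hij hi hj
    have h1 : ∃ u, β i u ≠ 1 := by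
      by_contra hcon
      push Not at hcon
      exact hi (MonoidHom.ext hcon)
    have h2 : ∃ u, β j u ≠ 1 := by
      by_contra hcon
      push Not at hcon
      exact hj (MonoidHom.ext hcon)
    obtain ⟨a, ha⟩ := h1
    obtain ⟨b, hb⟩ := h2
    exact free_product Γ hΓ β hβ p M hM φ hφ i j hij a b ha hb
  · intro α N M _ _ p _ hM φ hφ
    have := free_group Γ hΓ N M p hM φ hφ
    exact Subgroup.finiteIndex_of_finite_quotient
  · intro α I r n p _ hn φ hφ
    exact power_shift Γ hΓ r n p hn φ hφ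
  · intro α _ _ R hR N _ p _ hRN
    refine explicit R ?_ N p fun r hr => hRN r hr
    intro w
    obtain ⟨k, hk, hk1⟩ := isOfFinOrder_iff_pow_eq_one.1 (hR (PresentedGroup.mk _ w))
    refine ⟨k - 1, ?_⟩
    rw [Nat.sub_add_cancel hk]
    rw [← map_pow] at hk1
    exact PresentedGroup.mk_eq_one_iff.1 hk1

end Vale.Agent.Results.P192.FiniteSupports
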