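import Vale.Agent.P192.H121.Supp

/-!
# P192: homology growth of finitely presented periodic groups
-/

namespace Vale.Agent.Results.P192.HomologyGrowth

open Vale.Agent.P192.H121 Filter

universe u v w t

/-- **Homology growth.** Finitely presented periodic groups, and finitely presented groups with
homomorphisms to groups with rapidly descending chains of subgroups. -/
theorem result (Γ : Type u) [Group Γ] [Group.IsFinitelyPresented Γ] :
    -- (1) chains with elementary abelian quotients of large rank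
    (∀ (Q : Type v) [Group Q] (φ : Γ →* Q), φ.range.FiniteIndex →
      ∀ (p : ℕ) [Fact p.Prime] (H : ℕ → Subgroup Q), (∀ i, (H i).FiniteIndex) →
        (∀ i, ElAb p (H (i + 1)) (H i)) →
        (∀ K : ℝ, ∀ᶠ i : ℕ in atTop,
          (p : ℝ) ^ (K * (H i).index / Real.log (i + 2)) ≤ (H (i + 1)).relIndex (H i)) →
        ∃ γ : Γ, ¬ IsOfFinOrder γ) ∧
    -- (2) power relators
    (∀ (α : Type) [Fintype α] (I : Type v) (p : ℕ) [Fact p.Prime] (s : I → FreeGroup α)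
      (e : I → ℕ) (δ : ℝ), δ < Fintype.card α - 1 →
      (∀ J : Finset I, ∑ i ∈ J, 1 / (p : ℝ) ^ e i ≤ δ) →
      ∀ φ : Γ →* PresentedGroup (Set.range fun i => s i ^ (p ^ e i)), φ.range.FiniteIndex →
        ∃ γ : Γ, ¬ IsOfFinOrder γ) ∧
    -- (3) some of these groups are infinite `p`-groups
    (∀ (α : Type) [Fintype α] (p : ℕ) [Fact p.Prime] (δ : ℝ), 0 < δ →
      δ < Fintype.card α - 1 → ∃ (s : ℕ → FreeGroup α) (e : ℕ → ℕ),
        (∀ J : Finset ℕ, ∑ i ∈ J, 1 / (p : ℝ) ^ e i ≤ δ) ∧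
        IsPGroup p (PresentedGroup (Set.range fun i => s i ^ (p ^ e i))) ∧
        Infinite (PresentedGroup (Set.range fun i => s i ^ (p ^ e i)))) ∧
    ((∀ γ : Γ, IsOfFinOrder γ) →
      -- (4) the uniform form of (1)
      (∀ (p : ℕ) [Fact p.Prime], ∃ K : ℝ, 0 < K ∧ ∀ i₁ : ℕ, ∃ k : ℕ, ∀ H : ℕ → Subgroup Γ,
        (H i₁).FiniteIndex → (∀ i, i₁ ≤ i → i < k → ElAb p (H (i + 1)) (H i)) →
        ∃ i, i₁ ≤ i ∧ i < k ∧
          ((H (i + 1)).relIndex (H i) : ℝ) < (p : ℝ) ^ (K * (H i).index / Real.log (i + 2))) ∧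
      -- (5) the gradient is zero
      (∀ (p : ℕ) [Fact p.Prime] (ε : ℝ), 0 < ε → ∀ H₀ : Subgroup Γ, H₀.FiniteIndex →
        ∃ H : Subgroup Γ, H ≤ H₀ ∧ H.FiniteIndex ∧ ∀ H' : Subgroup Γ, ElAb p H' H →
          (H'.relIndex H : ℝ) < (p : ℝ) ^ (ε * H.index)) ∧
      -- (6) supports of cocycles
      (∀ S : Set Γ, Subgroup.closure S = ⊤ → ∃ C : ℕ,
        ∀ (X : Type w) [MulAction Γ X] [Finite X] [MulAction.IsPretransitive Γ X] (x₀ : X)
          (A : Type t) [Group A] (c : Γ → X → A),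
          (∀ g h x, c (g * h) x = c g (h • x) * c h x) →
          ∀ N : ℕ, (∀ s ∈ S, {x | c s x ≠ 1}.ncard ≤ N) →
          ∀ (p : ℕ) [Fact p.Prime] (m : ℕ)
            (l : MulAction.stabilizer Γ x₀ →* Multiplicative (Fin m → ZMod p)),
            Function.Surjective l → C * N < m → ∀ g : Γ, g • x₀ = x₀ → c g x₀ = 1)) := by
  refine ⟨fun Q _ φ hφ p _ H h1 h2 h3 => cover φ hφ p H h1 h2 h3,
    fun α _ I p _ s e δ h1 h2 φ hφ => power_relators p s e δ h1 h2 φ hφ,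
    fun α _ p _ δ h1 h2 => exists_pgroup p α δ h1 h2, fun hΓ => ⟨?_, ?_, ?_⟩⟩
  · intro p _
    obtain ⟨K, hK, h⟩ := rapidG Γ hΓ p
    refine ⟨K, hK, fun i₁ => ?_⟩
    obtain ⟨k, hk⟩ := h i₁
    refine ⟨k, fun H h1 h2 => ?_⟩
    by_contra hcon
    push Not at hcon
    exact hk H h1 fun i h3 h4 => ⟨h2 i h3 h4, hcon i h3 h4⟩
  · intro p _ ε hε H₀ h0
    exact zero_gradient Γ hΓ p ε hε H₀ h0
  · intro S hS
    obtain ⟨C, hC⟩ := support_bound Γ hΓ S hS
    exact ⟨C, fun X _ _ _ x₀ A _ c hc N hN p _ m l hl hm g hg =>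
      hC X x₀ A c hc N hN p m l hl hm g hg⟩

end Vale.Agent.Results.P192.HomologyGrowth
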