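import Vale.Agent.P192.H121.Span

/-!
# P192: finitely presented periodic groups of matrices over noncommutative rings
-/

namespace Vale.Agent.Results.P192.SkewLinearGroups

open Vale.Agent.P192 Vale.Agent.P192.H121

/-- The general linear group over a ring which need not be commutative. -/
abbrev GLn (n : ℕ) (A : Type) [Ring A] : Type := (Matrix (Fin n) (Fin n) A)ˣ

/-- The direct product of the free monoids on the sets `X i`. -/
abbrev Words {m : ℕ} (X : Fin m → Type) : Type := ∀ i, FreeMonoid (X i)

/-- The tensor product of the free algebras on the sets `X i` modulo the monomials of `W`. -/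
abbrev MonAlg (K : Type) [CommRing K] {m : ℕ} (X : Fin m → Type) (W : Set (Words X)) : Type :=
  (TwoSidedIdeal.span {f : MonoidAlgebra K (Words X) |
    ∃ w ∈ W, f = MonoidAlgebra.single w 1}).ringCon.Quotient

/-- One subgroup of finite index for all division rings of positive characteristic. -/
def Uniform : Prop :=
  ∀ (G : Type) [Group G], Group.FG G → (∀ x : G, IsOfFinOrder x) → ∀ n : ℕ,
    ∃ M : Subgroup G, M.FiniteIndex ∧ ∀ p : ℕ, 0 < p → ∀ (D : Type) [DivisionRing D]
      [CharP D p] (f : G →* GLn n D), Finite f.range → M ≤ f.ker

/-- Homomorphic images of products of division rings of positive characteristics. -/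
def Products : Prop :=
  ∀ (n : ℕ) (I : Type) (D : I → Type) [∀ i, DivisionRing (D i)] (p : I → ℕ)
    [∀ i, CharP (D i) (p i)], (∀ i, 0 < p i) →
    (∀ i, FPB (GLn n (D i)) ∨ Module.Finite (Subring.center (D i)) (D i)) →
    ∀ (A : Type) [Ring A] (π : (∀ i, D i) →+* A), Function.Surjective π → FPB (GLn n A)

/-- Monomial algebras and their tensor products over commutative rings. -/
def Monomial : Prop :=
  ∀ (K : Type) [CommRing K] (m : ℕ) (X : Fin m → Type) (W : Set (Words X)) (n : ℕ),
    FPB (GLn n (MonAlg K X W))

/-- Finitely generated periodic groups of matrices over tensor products of free algebras. -/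
def Free : Prop :=
  ∀ (K : Type) [CommRing K] (m : ℕ) (X : Fin m → Type) (n : ℕ)
    (G : Subgroup (GLn n (MonoidAlgebra K (Words X)))), Group.FG G →
    (∀ x : G, IsOfFinOrder x) → Finite G

/-- **Matrix groups over noncommutative rings.** `FPB G` says that every homomorphism from a
finitely presented periodic group to `G` has finite image. -/
theorem result : Uniform ∧ Products ∧ Monomial ∧ Free := by
  refine ⟨?_, ?_, ?_, ?_⟩
  · intro G _ hG hper n
    obtain ⟨M, hM, h⟩ := NC.exists_uniform hper n
    exact ⟨M, hM, fun p hp D _ _ f hf => h p hp D f (H903.finite_range_of_finite_ker f hf)⟩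
  · intro n I D _ p _ hp hD A _ π hπ
    refine NC.fpb_prod_quot D p hp (fun i => ?_) π hπ
    rcases hD i with h | h
    · exact h
    · exact (NC.fgp_of_center (D i) n).fpb
  · intro K _ m X W n
    exact NC.fpb_monomial K X W n
  · intro K _ m X n G hG hper
    have h := NC.fgp_monoidAlgebra (NC.tame_words X) K n G hG hper G.subtype
    rw [Subgroup.range_subtype] at h
    exact h

end Vale.Agent.Results.P192.SkewLinearGroups
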